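import Mathlib

/-!
Convexity of the output entropy of pure states.
-/

namespace Vale.Agent.P358

open Real

noncomputable def woot (C : ℝ) : ℝ := binEntropy ((1 + √(1 - C ^ 2)) / 2)

theorem woot_mono : MonotoneOn woot (Set.Icc 0 1) := by
  intro x hx y hy hxy
  have hm : ∀ z : ℝ, (1 + √(1 - z ^ 2)) / 2 ∈ Set.Icc (2⁻¹ : ℝ) 1 := by
    intro z
    have h1 := sqrt_nonneg (1 - z ^ 2)
    have h2 : √(1 - z ^ 2) ≤ 1 := sqrt_le_one.2 (by nlinarith [sq_nonneg z])
    constructor <;> linarith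
  refine binEntropy_strictAntiOn.antitoneOn (hm y) (hm x) ?_
  have : √(1 - y ^ 2) ≤ √(1 - x ^ 2) := sqrt_le_sqrt (by nlinarith [hx.1])
  linarith

theorem woot_convex : ConvexOn ℝ (Set.Icc 0 1) woot := by
  have hu : ∀ x : ℝ, x ∈ Set.Ioo (0 : ℝ) 1 → 0 < √(1 - x ^ 2) ∧ √(1 - x ^ 2) < 1 ∧
      √(1 - x ^ 2) ^ 2 = 1 - x ^ 2 ∧
      HasDerivAt (fun x : ℝ => √(1 - x ^ 2)) (-x / √(1 - x ^ 2)) x := by
    intro x hx
    have h1 : 0 < 1 - x ^ 2 := by nlinarith [hx.1, hx.2]
    refine ⟨sqrt_pos.2 h1, ?_, sq_sqrt h1.le, ?_⟩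
    · rw [sqrt_lt' one_pos]; nlinarith [hx.1]
    · have := (((hasDerivAt_id x).pow 2).const_sub 1).sqrt (by simpa using h1.ne')
      refine this.congr_deriv ?_
      simp
      field_simp
  refine convexOn_of_hasDerivWithinAt2_nonneg (convex_Icc 0 1)
    (f' := fun x => x / (2 * √(1 - x ^ 2)) * (log (1 + √(1 - x ^ 2)) - log (1 - √(1 - x ^ 2))))
    (f'' := fun x => ((log (1 + √(1 - x ^ 2)) - log (1 - √(1 - x ^ 2))) / 2 - √(1 - x ^ 2))
      / √(1 - x ^ 2) ^ 3) ?_ ?_ ?_ ?_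
  · unfold woot
    fun_prop
  · rw [interior_Icc]
    intro x hx
    obtain ⟨h1, h2, h3, h4⟩ := hu x hx
    have := (hasDerivAt_binEntropy (p := (1 + √(1 - x ^ 2)) / 2) (by linarith)
      (by linarith)).comp x ((h4.const_add 1).div_const 2)
    refine (this.congr_deriv ?_).hasDerivWithinAt
    rw [show 1 - (1 + √(1 - x ^ 2)) / 2 = (1 - √(1 - x ^ 2)) / 2 by ring,
      log_div (by linarith) two_ne_zero, log_div (by linarith) two_ne_zero]
    field_simp
    ring
  · rw [interior_Icc]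
    intro x hx
    obtain ⟨h1, h2, h3, h4⟩ := hu x hx
    have := ((hasDerivAt_id x).div (h4.const_mul 2) (by positivity)).mul
      (((h4.const_add 1).log (by linarith)).sub ((h4.const_sub 1).log (by linarith)))
    refine (this.congr_deriv ?_).hasDerivWithinAt
    have h5 : 0 < 1 - √(1 - x ^ 2) := by linarith
    simp only [id, Pi.sub_apply, Pi.div_apply]
    generalize √(1 - x ^ 2) = u at *
    generalize log (1 + u) - log (1 - u) = L
    have h6 : x ^ 2 = (1 - u) * (1 + u) := by linarith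
    field_simp
    rw [h6]
    ring
  · rw [interior_Icc]
    intro x hx
    obtain ⟨h1, h2, h3, h4⟩ := hu x hx
    refine div_nonneg ?_ (by positivity)
    generalize √(1 - x ^ 2) = u at *
    have h5 : 0 < 1 - u := by linarith
    have := le_log_one_add_of_nonneg (x := 2 * u / (1 - u)) (by positivity)
    rw [show 1 + 2 * u / (1 - u) = (1 + u) / (1 - u) by field_simp; ring,
      log_div (by linarith) h5.ne',
      show 2 * (2 * u / (1 - u)) / (2 * u / (1 - u) + 2) = 2 * u by field_simp; ring] at this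
    linarith

theorem sqrt_jensen {ι : Type} [Fintype ι] {p : ι → ℝ} (x : ι → ℝ) (hp : ∀ a, 0 ≤ p a)
    (hs : ∑ a, p a = 1) {A B : ℝ} (hA : 0 ≤ A) (hB : 0 ≤ B) :
    √(A + B * (∑ a, p a * x a) ^ 2) ≤ ∑ a, p a * √(A + B * x a ^ 2) := by
  set y := ∑ a, p a * x a with hy
  have h0 : 0 ≤ A + B * y ^ 2 := by positivity
  rcases eq_or_lt_of_le (sqrt_nonneg (A + B * y ^ 2)) with h | h
  · rw [← h]
    exact Finset.sum_nonneg fun a _ => mul_nonneg (hp a) (sqrt_nonneg _)
  refine le_of_mul_le_mul_right ?_ h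
  rw [mul_self_sqrt h0, Finset.sum_mul]
  have e : A + B * y ^ 2 = ∑ a, p a * (A + B * x a * y) := by
    simp only [mul_add, Finset.sum_add_distrib, ← Finset.sum_mul, hs]
    rw [show ∑ a, p a * (B * x a * y) = B * y * ∑ a, p a * x a by
      rw [Finset.mul_sum]; exact Finset.sum_congr rfl fun a _ => by ring, ← hy]
    ring
  refine e.le.trans (Finset.sum_le_sum fun a _ => ?_)
  rw [mul_assoc (p a), ← sqrt_mul (by positivity)]
  refine mul_le_mul_of_nonneg_left (le_sqrt_of_sq_le ?_) (hp a)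
  nlinarith [mul_nonneg (mul_nonneg hA hB) (sq_nonneg (x a - y))]

end Vale.Agent.P358
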